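import Vale.Agent.P281.H167.RC.Iface
import Vale.Agent.P281.H368.GM.K4

/-! P281, theorem RC: row D (closedness of the condition `KerAt`). -/

open scoped Manifold ContDiff Topology ComplexOrder
open Set Filter Vale.Agent.P281.J Vale.Agent.P272.K Vale.Agent.P299

noncomputable section

namespace Vale.Agent.P281.H156.RC

open Vale.Agent.P281.H949.SA (De)
open Vale.Agent.P281.H368.GM (De_self De_injective ker_change atc)
open Vale.Agent.P281.H167 Vale.Agent.P281.H167.RC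
open Vale.Agent.P272.K.INT (IsClosedForm)

section one

variable {n : ℕ} {Z : Type} [TopologicalSpace Z] [ChartedSpace (Cm n) Z]
  [IsManifold 𝓘(ℂ, Cm n) ω Z] {V : Type} [NormedAddCommGroup V] [NormedSpace ℂ V]

lemma chart_v {k : Z → V} {e : Chart n Z} {x : Z} (hx : At e x)
    (hk : ContMDiffAt 𝓘(ℂ, Cm n) 𝓘(ℂ, V) ω k x) :
    ContDiffAt ℂ ω (fun z => k (e.symm z)) (e x) := by
  rw [← contMDiffAt_iff_contDiffAt]
  refine ContMDiffAt.comp (e x) (g := k) ?_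
    (Vale.Agent.P272.K.chart_symm_contMDiffAt hx.1 hx.mem_target)
  rw [hx.left_inv]
  exact hk

lemma mfd_eq {e : Chart n Z} {x : Z} (h : At e x) {g : Z → V}
    (hg : ContMDiffAt 𝓘(ℂ, Cm n) 𝓘(ℂ, V) ω g x) (v : Cm n) :
    (mfderiv 𝓘(ℂ, Cm n) 𝓘(ℂ, V) g x : Cm n →L[ℂ] V) v =
      fderiv ℂ (fun z => g (e.symm z)) (e x) (De e x v) := by
  have h1 : g =ᶠ[𝓝 x] (fun z => g (e.symm z)) ∘ e := by
    filter_upwards [e.open_source.mem_nhds h.2] with y hy
    simp [e.left_inv hy]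
  have h2 : MDifferentiableAt 𝓘(ℂ, Cm n) 𝓘(ℂ, V) (fun z => g (e.symm z)) (e x) :=
    ((chart_v h hg).differentiableAt (by simp)).mdifferentiableAt
  have h3 : MDifferentiableAt 𝓘(ℂ, Cm n) 𝓘(ℂ, Cm n) e x :=
    (mdifferentiable_of_mem_atlas (I := 𝓘(ℂ, Cm n)) (H := Cm n) h.1).mdifferentiableAt h.2
  have h4 : mfderiv 𝓘(ℂ, Cm n) 𝓘(ℂ, V) g x =
      (mfderiv 𝓘(ℂ, Cm n) 𝓘(ℂ, V) (fun z => g (e.symm z)) (e x)).comp
        (mfderiv 𝓘(ℂ, Cm n) 𝓘(ℂ, Cm n) e x) := by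
    rw [← mfderiv_comp x h2 h3]
    exact h1.mfderiv_eq
  have h5 := congrArg (fun T : Cm n →L[ℂ] V => T v) h4
  rw [mfderiv_eq_fderiv] at h5
  exact h5

lemma tend_fderiv {e : Chart n Z} {x : Z} (h : At e x) {g : Z → V}
    (hg : ContMDiffAt 𝓘(ℂ, Cm n) 𝓘(ℂ, V) ω g x) {l : Filter Z} (hl : l ≤ 𝓝 x) :
    Tendsto (fun z => fderiv ℂ (fun a => g (e.symm a)) (e z)) l
      (𝓝 (fderiv ℂ (fun a => g (e.symm a)) (e x))) := by
  have h1 : ContDiffAt ℂ 0 (fderiv ℂ (fun a => g (e.symm a))) (e x) :=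
    (chart_v h hg).fderiv_right (by simp)
  exact (h1.continuousAt.tendsto.comp (e.continuousAt h.2).tendsto).mono_left hl

lemma tend_app {e : Chart n Z} {x : Z} (h : At e x) {g : Z → V}
    (hg : ContMDiffAt 𝓘(ℂ, Cm n) 𝓘(ℂ, V) ω g x) {l : Filter Z} (hl : l ≤ 𝓝 x) {U : Z → Cm n}
    {v : Cm n} (hU : Tendsto U l (𝓝 v)) :
    Tendsto (fun z => fderiv ℂ (fun a => g (e.symm a)) (e z) (U z)) l
      (𝓝 (fderiv ℂ (fun a => g (e.symm a)) (e x) v)) := by
  have h1 : Continuous fun p : (Cm n →L[ℂ] V) × Cm n => p.1 p.2 :=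
    isBoundedBilinearMap_apply.continuous
  exact (h1.tendsto (fderiv ℂ (fun a => g (e.symm a)) (e x), v)).comp
    ((tend_fderiv h hg hl).prodMk_nhds hU)

end one

theorem closPart : ClosPart := by
  intro n p X Z Y _ _ _ _ _ _ _ _ _ _ j hj f hf β hβ z N H g hg hH hfr
  obtain ⟨hj0, hj1, hj2, -⟩ := hj
  set e : Chart n X := chartAt (Cm n) (j z) with he
  set ε : Chart n Z := chartAt (Cm n) z with hε
  set η : Chart p Y := chartAt (Cm p) (f z) with hη
  have hz : At ε z := atc z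
  have hex : At e (j z) := atc (j z)
  have hηy : At η (f z) := atc (f z)
  -- compositions
  have hjc : ContinuousAt j z := hj1.continuous.continuousAt
  have hfc : ContinuousAt f z := hf.continuous.continuousAt
  have hgev : ∀ᶠ z' in 𝓝 z, HolAt (Cm n) g (j z') :=
    hjc.eventually (Vale.Agent.P281.H564.holAt_eventually hg)
  have hHev : ∀ᶠ z' in 𝓝 z, ∀ b, HolAt (Cm n) (H b) (j z') :=
    eventually_all.2 fun b => hjc.eventually (Vale.Agent.P281.H564.holAt_eventually (hH b))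
  have hεev : ∀ᶠ z' in 𝓝 z, At ε z' := by
    filter_upwards [ε.open_source.mem_nhds hz.2] with z' hz' using ⟨hz.1, hz'⟩
  have heev : ∀ᶠ z' in 𝓝 z, At e (j z') := by
    filter_upwards [hjc.eventually (e.open_source.mem_nhds hex.2)] with z' hz' using ⟨hex.1, hz'⟩
  have hηev : ∀ᶠ z' in 𝓝 z, At η (f z') := by
    filter_upwards [hfc.eventually (η.open_source.mem_nhds hηy.2)] with z' hz' using ⟨hηy.1, hz'⟩
  -- holomorphy of the compositions
  have hgj : ∀ z', HolAt (Cm n) g (j z') →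
      ContMDiffAt 𝓘(ℂ, Cm n) 𝓘(ℂ, ℂ) ω (fun z => g (j z)) z' := fun z' h =>
    ContMDiffAt.comp z' (g := g) h (hj0 z')
  have hHj : ∀ z' b, HolAt (Cm n) (H b) (j z') →
      ContMDiffAt 𝓘(ℂ, Cm n) 𝓘(ℂ, ℂ) ω (fun z => H b (j z)) z' := fun z' b h =>
    ContMDiffAt.comp z' (g := H b) h (hj0 z')
  have hej : ∀ z', At e (j z') →
      ContMDiffAt 𝓘(ℂ, Cm n) 𝓘(ℂ, Cm n) ω (fun z => e (j z)) z' := fun z' h =>
    ContMDiffAt.comp z' (g := e) (INT.chart_contMDiffAt h) (hj0 z')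
  have hηf : ∀ z', At η (f z') →
      ContMDiffAt 𝓘(ℂ, Cm n) 𝓘(ℂ, Cm p) ω (fun z => η (f z)) z' := fun z' h =>
    ContMDiffAt.comp z' (g := η) (INT.chart_contMDiffAt h) (hf z')
  -- differentials of the compositions
  have dg : ∀ z' (v : Cm n), HolAt (Cm n) g (j z') → At ε z' →
      fderiv ℂ (fun a => g (j (ε.symm a))) (ε z') (De ε z' v) =
        dif (Cm n) g (j z') (mfderiv 𝓘(ℂ, Cm n) 𝓘(ℂ, Cm n) j z' v) := by
    intro z' v h1 h2
    rw [← mfd_eq (g := fun z => g (j z)) h2 (hgj z' h1) v]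
    have h3 := mfderiv_comp z' (h1.mdifferentiableAt (by simp)) ((hj0 z').mdifferentiableAt (by simp))
    exact congrArg (fun T : Cm n →L[ℂ] ℂ => T v) h3
  have dH : ∀ z' b (v : Cm n), HolAt (Cm n) (H b) (j z') → At ε z' →
      fderiv ℂ (fun a => H b (j (ε.symm a))) (ε z') (De ε z' v) =
        dif (Cm n) (H b) (j z') (mfderiv 𝓘(ℂ, Cm n) 𝓘(ℂ, Cm n) j z' v) := by
    intro z' b v h1 h2
    rw [← mfd_eq (g := fun z => H b (j z)) h2 (hHj z' b h1) v]
    have h3 := mfderiv_comp z' (h1.mdifferentiableAt (by simp)) ((hj0 z').mdifferentiableAt (by simp))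
    exact congrArg (fun T : Cm n →L[ℂ] ℂ => T v) h3
  have de : ∀ z' (v : Cm n), At e (j z') → At ε z' →
      fderiv ℂ (fun a => e (j (ε.symm a))) (ε z') (De ε z' v) =
        De e (j z') (mfderiv 𝓘(ℂ, Cm n) 𝓘(ℂ, Cm n) j z' v) := by
    intro z' v h1 h2
    rw [← mfd_eq (g := fun z => e (j z)) h2 (hej z' h1) v]
    have h3 := mfderiv_comp z' ((INT.chart_contMDiffAt h1).mdifferentiableAt (by simp))
      ((hj0 z').mdifferentiableAt (by simp))
    exact congrArg (fun T : Cm n →L[ℂ] Cm n => T v) h3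
  have dη : ∀ z' (v : Cm n), At η (f z') → At ε z' →
      fderiv ℂ (fun a => η (f (ε.symm a))) (ε z') (De ε z' v) =
        De η (f z') (mfderiv 𝓘(ℂ, Cm n) 𝓘(ℂ, Cm p) f z' v) := by
    intro z' v h1 h2
    rw [← mfd_eq (g := fun z => η (f z)) h2 (hηf z' h1) v]
    have h3 := mfderiv_comp z' ((INT.chart_contMDiffAt h1).mdifferentiableAt (by simp))
      ((hf z').mdifferentiableAt (by simp))
    exact congrArg (fun T : Cm n →L[ℂ] Cm p => T v) h3
  -- the unit vectors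
  let P : Z → Cm n → Prop := fun z' u =>
    fderiv ℂ (fun a => g (j (ε.symm a))) (ε z') u = 0 ∧
    (∀ b b', H b (j z') * fderiv ℂ (fun a => H b' (j (ε.symm a))) (ε z') u =
      H b' (j z') * fderiv ℂ (fun a => H b (j (ε.symm a))) (ε z') u) ∧
    (∀ l, ∑ i, fderiv ℂ (fun a => e (j (ε.symm a))) (ε z') u i * β e (e (j z')) i l = 0) ∧
    fderiv ℂ (fun a => η (f (ε.symm a))) (ε z') u = 0
  have hch : ∀ z', ∃ u : Cm n, (KerAt p j f H g β z' ∧ HolAt (Cm n) g (j z') ∧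
      (∀ b, HolAt (Cm n) (H b) (j z')) ∧ At ε z' ∧ At e (j z') ∧ At η (f z')) →
      ‖u‖ = 1 ∧ P z' u := by
    intro z'
    by_cases hK : (KerAt p j f H g β z' ∧ HolAt (Cm n) g (j z') ∧
      (∀ b, HolAt (Cm n) (H b) (j z')) ∧ At ε z' ∧ At e (j z') ∧ At η (f z'))
    swap
    · exact ⟨0, fun h => absurd h hK⟩
    obtain ⟨⟨-, v, w, hvw, hw0, k1, k2, k3, k4⟩, a1, a2, a3, a4, a5⟩ := hK
    set u : Cm n := De ε z' v with hu
    have hu0 : u ≠ 0 := by
      intro h0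
      have h1 : (De ε z' : Cm n →ₗ[ℂ] Cm n) v = (De ε z' : Cm n →ₗ[ℂ] Cm n) 0 := by
        rw [map_zero]; exact h0
      have h2 : v = 0 := De_injective a3 h1
      apply hw0
      rw [← hvw, h2]
      exact map_zero _
    have hn : ‖u‖ ≠ 0 := norm_ne_zero_iff.2 hu0
    have b1 : fderiv ℂ (fun a => g (j (ε.symm a))) (ε z') u = 0 := by
      rw [hu, dg z' v a1 a3, hvw]; exact k1
    have b2 : ∀ b b', H b (j z') * fderiv ℂ (fun a => H b' (j (ε.symm a))) (ε z') u =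
        H b' (j z') * fderiv ℂ (fun a => H b (j (ε.symm a))) (ε z') u := by
      intro b b'
      rw [hu, dH z' b v (a2 b) a3, dH z' b' v (a2 b') a3, hvw]
      exact k2 b b'
    have b3 : ∀ l, ∑ i, fderiv ℂ (fun a => e (j (ε.symm a))) (ε z') u i *
        β e (e (j z')) i l = 0 := by
      intro l
      rw [hu, de z' v a4 a3, hvw]
      exact ker_change hβ.form a4 k3 l
    have b4 : fderiv ℂ (fun a => η (f (ε.symm a))) (ε z') u = 0 := by
      rw [hu, dη z' v a5 a3, k4]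
      exact map_zero _
    refine ⟨((‖u‖⁻¹ : ℝ) : ℂ) • u, fun _ => ⟨?_, ?_, ?_, ?_, ?_⟩⟩
    · rw [norm_smul, Complex.norm_real, norm_inv, norm_norm, inv_mul_cancel₀ hn]
    · rw [map_smul, b1, smul_zero]
    · intro b b'
      rw [map_smul, map_smul, smul_eq_mul, smul_eq_mul, mul_left_comm, b2 b b', mul_left_comm]
    · intro l
      rw [map_smul]
      have h1 := congrArg (fun t => ((‖u‖⁻¹ : ℝ) : ℂ) * t) (b3 l)
      simp only [mul_zero, Finset.mul_sum] at h1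
      rw [← h1]
      refine Finset.sum_congr rfl fun i _ => ?_
      rw [Pi.smul_apply, smul_eq_mul, mul_assoc]
    · rw [map_smul, b4, smul_zero]
  choose V hV using hch
  -- the ultrafilter
  have hne : (𝓝 z ⊓ 𝓟 {z' | KerAt p j f H g β z'}).NeBot := frequently_mem_iff_neBot.1 hfr
  set 𝒰 : Ultrafilter Z := Ultrafilter.of (𝓝 z ⊓ 𝓟 {z' | KerAt p j f H g β z'}) with h𝒰
  have h𝒰z : (𝒰 : Filter Z) ≤ 𝓝 z := (Ultrafilter.of_le _).trans inf_le_left
  have h𝒰K : ∀ᶠ z' in (𝒰 : Filter Z), KerAt p j f H g β z' :=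
    (Ultrafilter.of_le _).trans inf_le_right (mem_principal_self _)
  have h𝒰V : ∀ᶠ z' in (𝒰 : Filter Z), ‖V z'‖ = 1 ∧ P z' (V z') := by
    filter_upwards [h𝒰K, h𝒰z hgev, h𝒰z hHev, h𝒰z hεev, h𝒰z heev, h𝒰z hηev] with z' c1 c2 c3 c4
      c5 c6
    exact hV z' ⟨c1, c2, c3, c4, c5, c6⟩
  have hS : ((𝒰.map V : Ultrafilter (Cm n)) : Filter (Cm n)) ≤ 𝓟 (Metric.sphere (0 : Cm n) 1) := by
    rw [Ultrafilter.coe_map, le_principal_iff, mem_map]
    filter_upwards [h𝒰V] with z' hz'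
    simpa using hz'.1
  obtain ⟨v₀, hv₀, hlim⟩ := (isCompact_sphere (0 : Cm n) 1).ultrafilter_le_nhds _ hS
  have hlim' : Tendsto V (𝒰 : Filter Z) (𝓝 v₀) := by
    rwa [Ultrafilter.coe_map] at hlim
  have hv0 : v₀ ≠ 0 := by
    intro h0
    rw [h0] at hv₀
    simp at hv₀
  -- limits
  have tg := tend_app (g := fun z => g (j z)) hz (hgj z hg) h𝒰z hlim'
  have tH := fun b => tend_app (g := fun z => H b (j z)) hz (hHj z b (hH b)) h𝒰z hlim'
  have te := tend_app (g := fun z => e (j z)) hz (hej z hex) h𝒰z hlim'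
  have tη := tend_app (g := fun z => η (f z)) hz (hηf z hηy) h𝒰z hlim'
  have l1 : fderiv ℂ (fun a => g (j (ε.symm a))) (ε z) v₀ = 0 :=
    tendsto_nhds_unique_of_eventuallyEq tg tendsto_const_nhds (h𝒰V.mono fun z' h => h.2.1)
  have l4 : fderiv ℂ (fun a => η (f (ε.symm a))) (ε z) v₀ = 0 :=
    tendsto_nhds_unique_of_eventuallyEq tη tendsto_const_nhds (h𝒰V.mono fun z' h => h.2.2.2.2)
  have tHv : ∀ b, Tendsto (fun z' => H b (j z')) (𝒰 : Filter Z) (𝓝 (H b (j z))) := fun b =>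
    ((hHj z b (hH b)).continuousAt.tendsto).mono_left h𝒰z
  have l2 : ∀ b b', H b (j z) * fderiv ℂ (fun a => H b' (j (ε.symm a))) (ε z) v₀ =
      H b' (j z) * fderiv ℂ (fun a => H b (j (ε.symm a))) (ε z) v₀ := fun b b' =>
    tendsto_nhds_unique_of_eventuallyEq ((tHv b).mul (tH b')) ((tHv b').mul (tH b))
      (h𝒰V.mono fun z' h => h.2.2.1 b b')
  have l3 : ∀ l, ∑ i, fderiv ℂ (fun a => e (j (ε.symm a))) (ε z) v₀ i *
      β e (e (j z)) i l = 0 := by
    intro l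
    have tβ : ∀ i, Tendsto (fun z' => β e (e (j z')) i l) (𝒰 : Filter Z)
        (𝓝 (β e (e (j z)) i l)) := by
      intro i
      have c1 : ContinuousAt (fun a => β e a i l) (e (j z)) :=
        (hβ.smooth e (j z) hex i l).continuousAt
      have c2 : ContinuousAt (fun z' => e (j z')) z := (hej z hex).continuousAt
      exact (c1.tendsto.comp c2.tendsto).mono_left h𝒰z
    have tS : Tendsto (fun z' => ∑ i, fderiv ℂ (fun a => e (j (ε.symm a))) (ε z') (V z') i *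
        β e (e (j z')) i l) (𝒰 : Filter Z) (𝓝 (∑ i, fderiv ℂ (fun a => e (j (ε.symm a))) (ε z) v₀ i *
        β e (e (j z)) i l)) :=
      tendsto_finsetSum _ fun i _ => ((tendsto_pi_nhds.1 te) i).mul (tβ i)
    exact tendsto_nhds_unique_of_eventuallyEq tS tendsto_const_nhds
      (h𝒰V.mono fun z' h => h.2.2.2.1 l)
  -- conclusion
  have hself : De ε z v₀ = v₀ := De_self z v₀
  refine ⟨?_, v₀, mfderiv 𝓘(ℂ, Cm n) 𝓘(ℂ, Cm n) j z v₀, rfl, ?_, ?_, ?_, ?_, ?_⟩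
  · have tg0 : Tendsto (fun z' => g (j z')) (𝒰 : Filter Z) (𝓝 (g (j z))) :=
      ((hgj z hg).continuousAt.tendsto).mono_left h𝒰z
    exact tendsto_nhds_unique_of_eventuallyEq tg0 tendsto_const_nhds (h𝒰K.mono fun z' h => h.1)
  · intro h0
    apply hv0
    apply hj2 z
    rw [h0]
    exact (map_zero _).symm
  · have h2 := dg z v₀ hg hz
    rw [hself, l1] at h2
    exact h2.symm
  · intro b b'
    have h1 := l2 b b'
    have h2 := dH z b v₀ (hH b) hz
    have h3 := dH z b' v₀ (hH b') hz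
    rw [hself] at h2 h3
    rw [h2, h3] at h1
    exact h1
  · intro l
    have h1 := de z v₀ hex hz
    rw [hself] at h1
    have h2 : De e (j z) (mfderiv 𝓘(ℂ, Cm n) 𝓘(ℂ, Cm n) j z v₀) =
      mfderiv 𝓘(ℂ, Cm n) 𝓘(ℂ, Cm n) j z v₀ := De_self (j z) _
    rw [h2] at h1
    have h3 := l3 l
    rw [h1] at h3
    exact h3
  · have h1 := dη z v₀ hηy hz
    rw [hself, l4] at h1
    have h2 : De η (f z) (mfderiv 𝓘(ℂ, Cm n) 𝓘(ℂ, Cm p) f z v₀) =
      mfderiv 𝓘(ℂ, Cm n) 𝓘(ℂ, Cm p) f z v₀ := De_self (f z) _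
    rw [h2] at h1
    exact h1.symm

end Vale.Agent.P281.H156.RC
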