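import Vale.Agent.P281.H156.RC.Clos

/-! P281, theorem RC: row D' (density). -/

open scoped Manifold ContDiff Topology ComplexOrder
open Set Filter Vale.Agent.P281.J Vale.Agent.P272.K Vale.Agent.P299

noncomputable section

namespace Vale.Agent.P281.H156.RC

open Vale.Agent.P281.H949.SA (De)
open Vale.Agent.P281.H368.GM (De_self De_injective ker_change atc)
open Vale.Agent.P281.H167 Vale.Agent.P281.H167.RC
open Vale.Agent.P272.K.INT (IsClosedForm)

/-- a submersion in a chart maps the neighbourhood filter onto the neighbourhood filter -/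
lemma map_nhds_chart {n : ℕ} {Z : Type} [TopologicalSpace Z] [ChartedSpace (Cm n) Z]
    [IsManifold 𝓘(ℂ, Cm n) ω Z] {V : Type} [NormedAddCommGroup V] [NormedSpace ℂ V]
    [CompleteSpace V] {k : Z → V} {z : Z} (hk : ContMDiffAt 𝓘(ℂ, Cm n) 𝓘(ℂ, V) ω k z)
    (hs : Function.Surjective (mfderiv 𝓘(ℂ, Cm n) 𝓘(ℂ, V) k z : Cm n →L[ℂ] V)) :
    Filter.map k (𝓝 z) = 𝓝 (k z) := by
  set ε : Chart n Z := chartAt (Cm n) z with hε
  have hz : At ε z := atc z
  have h1 := chart_v hz hk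
  have h2 : HasStrictFDerivAt (fun a => k (ε.symm a)) (fderiv ℂ (fun a => k (ε.symm a)) (ε z))
      (ε z) := h1.hasStrictFDerivAt (by simp)
  have h3 : Function.Surjective (fderiv ℂ (fun a => k (ε.symm a)) (ε z)) := by
    intro y
    obtain ⟨v, hv⟩ := hs y
    refine ⟨v, ?_⟩
    have h4 := mfd_eq hz hk v
    have h5 : De ε z v = v := De_self z v
    rw [h5] at h4
    rw [← h4]
    exact hv
  have h4 := h2.map_nhds_eq_of_surj (LinearMap.range_eq_top.2 h3)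
  have h5 : Filter.map ε (𝓝 z) = 𝓝 (ε z) := ε.map_nhds_eq hz.2
  have h6 : k =ᶠ[𝓝 z] (fun a => k (ε.symm a)) ∘ ε := by
    filter_upwards [ε.open_source.mem_nhds hz.2] with y hy
    simp [ε.left_inv hy]
  rw [Filter.map_congr h6, ← Filter.map_map, h5, h4, hz.left_inv]

theorem densPart : DensPart := by
  intro n p X Z Y _ _ _ _ _ _ _ _ _ _ j hj f hf g z hg hg0 htr hdg O hO hOd
  obtain ⟨hj0, hj1, hj2, -⟩ := hj
  set η : Chart p Y := chartAt (Cm p) (f z) with hη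
  have hηy : At η (f z) := atc (f z)
  have hηc : ContMDiffAt 𝓘(ℂ, Cm n) 𝓘(ℂ, Cm p) ω (fun z => η (f z)) z :=
    ContMDiffAt.comp z (g := η) (INT.chart_contMDiffAt hηy) (hf z)
  have hgc : ContMDiffAt 𝓘(ℂ, Cm n) 𝓘(ℂ, ℂ) ω (fun z => g (j z)) z :=
    ContMDiffAt.comp z (g := g) hg (hj0 z)
  have hΦ : ContMDiffAt 𝓘(ℂ, Cm n) 𝓘(ℂ, Cm p × ℂ) ω (fun z => (η (f z), g (j z))) z :=
    hηc.prodMk_space hgc
  set Tf : Cm n →L[ℂ] Cm p := mfderiv 𝓘(ℂ, Cm n) 𝓘(ℂ, Cm p) f z with hTf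
  set Tj : Cm n →L[ℂ] Cm n := mfderiv 𝓘(ℂ, Cm n) 𝓘(ℂ, Cm n) j z with hTj
  set ε : Chart n Z := chartAt (Cm n) z with hε
  have hz : At ε z := atc z
  have hself : ∀ v, De ε z v = v := fun v => De_self z v
  have d1 : ∀ v : Cm n, fderiv ℂ (fun a => η (f (ε.symm a))) (ε z) v = Tf v := by
    intro v
    have h3 := mfderiv_comp z ((INT.chart_contMDiffAt hηy).mdifferentiableAt (by simp))
      ((hf z).mdifferentiableAt (by simp))
    have h4 : (mfderiv 𝓘(ℂ, Cm n) 𝓘(ℂ, Cm p) (fun z => η (f z)) z : Cm n →L[ℂ] Cm p) v =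
        De η (f z) (Tf v) := congrArg (fun T : Cm n →L[ℂ] Cm p => T v) h3
    have h5 := mfd_eq hz hηc v
    rw [hself] at h5
    rw [← h5, h4]
    exact De_self (f z) _
  have d2 : ∀ v : Cm n, fderiv ℂ (fun a => g (j (ε.symm a))) (ε z) v =
      dif (Cm n) g (j z) (Tj v) := by
    intro v
    have h3 := mfderiv_comp z (hg.mdifferentiableAt (by simp)) ((hj0 z).mdifferentiableAt (by simp))
    have h4 : (mfderiv 𝓘(ℂ, Cm n) 𝓘(ℂ, ℂ) (fun z => g (j z)) z : Cm n →L[ℂ] ℂ) v =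
        dif (Cm n) g (j z) (Tj v) := congrArg (fun T : Cm n →L[ℂ] ℂ => T v) h3
    have h5 := mfd_eq hz hgc v
    rw [hself] at h5
    rw [← h5, h4]
  have hjs : Function.Surjective Tj := by
    have h1 : Function.Injective (Tj : Cm n →ₗ[ℂ] Cm n) := hj2 z
    exact LinearMap.surjective_of_injective h1
  have hsurj : Function.Surjective
      (mfderiv 𝓘(ℂ, Cm n) 𝓘(ℂ, Cm p × ℂ) (fun z => (η (f z), g (j z))) z :
        Cm n →L[ℂ] Cm p × ℂ) := by
    have dΦ : ∀ v : Cm n, (mfderiv 𝓘(ℂ, Cm n) 𝓘(ℂ, Cm p × ℂ) (fun z => (η (f z), g (j z))) z :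
        Cm n →L[ℂ] Cm p × ℂ) v = (Tf v, dif (Cm n) g (j z) (Tj v)) := by
      intro v
      have h5 := mfd_eq hz hΦ v
      rw [hself] at h5
      have h6 : HasFDerivAt (fun a => (η (f (ε.symm a)), g (j (ε.symm a))))
          ((fderiv ℂ (fun a => η (f (ε.symm a))) (ε z)).prod
            (fderiv ℂ (fun a => g (j (ε.symm a))) (ε z))) (ε z) :=
        (((chart_v hz hηc).differentiableAt (by simp)).hasFDerivAt).prodMk
          (((chart_v hz hgc).differentiableAt (by simp)).hasFDerivAt)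
      rw [h5, h6.fderiv, ContinuousLinearMap.prod_apply, d1, d2]
    have hw : ∃ w : Cm n, dif (Cm n) g (j z) w ≠ 0 := by
      by_contra hcon
      push Not at hcon
      exact hdg (ContinuousLinearMap.ext hcon)
    obtain ⟨w, hw⟩ := hw
    obtain ⟨v₂, hv₂⟩ := hjs w
    rintro ⟨y, c⟩
    set a : ℂ := c / dif (Cm n) g (j z) w with ha
    obtain ⟨v₁, hv₁, hv₁'⟩ := htr (y - a • Tf v₂)
    have hv₁a : Tf v₁ = y - a • Tf v₂ := hv₁
    have hv₁b : dif (Cm n) g (j z) (Tj v₁) = 0 := hv₁'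
    refine ⟨v₁ + a • v₂, ?_⟩
    rw [dΦ]
    have e1 : Tf (v₁ + a • v₂) = y := by
      rw [map_add, map_smul, hv₁a]
      abel
    have e2 : dif (Cm n) g (j z) (Tj (v₁ + a • v₂)) = c := by
      rw [map_add, map_smul, map_add, map_smul, hv₁b, hv₂, zero_add, smul_eq_mul, ha,
        div_mul_cancel₀ _ hw]
    exact Prod.ext e1 e2
  have hmap := map_nhds_chart hΦ hsurj
  rw [Filter.Frequently]
  intro hcon
  have hsrc : ∀ᶠ z' in 𝓝 z, f z' ∈ η.source :=
    hf.continuous.continuousAt.eventually (η.open_source.mem_nhds hηy.2)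
  have himg : (fun z => (η (f z), g (j z))) '' {z' | ¬(g (j z') = 0 ∧ f z' ∈ O) ∧ f z' ∈ η.source} ∈
      𝓝 (η (f z), g (j z)) := by
    rw [← hmap]
    exact image_mem_map (hcon.and hsrc)
  rw [hg0] at himg
  have hcy : ContinuousAt (fun y => (η y, (0 : ℂ))) (f z) :=
    (η.continuousAt hηy.2).prodMk continuousAt_const
  have h1 : ∀ᶠ y in 𝓝 (f z), (η y, (0 : ℂ)) ∈ (fun z => (η (f z), g (j z))) ''
      {z' | ¬(g (j z') = 0 ∧ f z' ∈ O) ∧ f z' ∈ η.source} := hcy.eventually himg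
  have h2 : ∃ᶠ y in 𝓝 (f z), y ∈ O := mem_closure_iff_frequently.1 (hOd (f z))
  obtain ⟨y, hyO, ⟨z', ⟨hz1, hz2⟩, hz3⟩, hy⟩ :=
    (h2.and_eventually (h1.and (η.open_source.mem_nhds hηy.2))).exists
  have h3 : η (f z') = η y := congrArg Prod.fst hz3
  have h4 : g (j z') = 0 := congrArg Prod.snd hz3
  have h5 : f z' = y := η.injOn hz2 hy h3
  exact hz1 ⟨h4, h5 ▸ hyO⟩

end Vale.Agent.P281.H156.RC
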